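import Mathlib

/-!
# P336: the choice of the parameters
-/

namespace Vale.Agent.P336.R2.H597

theorem numerics : ∃ K : ℕ, ∀ N p S t : ℕ, 2 ≤ p → 1 ≤ t → 1 ≤ N → K * p * 2 ^ p * N * t ≤ S ^ 2 →
    p * S ≤ N → ∀ q : ℕ, q * q ≤ N → N < (q + 1) * (q + 1) → ∃ ρ ℓ r a : ℕ, p ≤ q ∧ ρ ≤ q ∧
      ℓ = ρ * q ∧ r = p * ℓ ∧ 0 < ℓ ∧ 2 * q + r + r ≤ N ∧ 2 ^ p * (t + 3) + p ≤ a ∧ a ≤ ℓ ∧
      (N / ℓ + 1) * a ≤ S - (2 * q + r) := by
  refine ⟨4096, ?_⟩
  intro N p S t hp ht hN h1 h2 q hq1 hq2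
  obtain ⟨P, hP⟩ : ∃ P, P = 2 ^ p := ⟨_, rfl⟩
  rw [← hP] at h1 ⊢
  have hP2 : 2 * p ≤ P := by
    rw [hP]
    obtain ⟨k, rfl⟩ : ∃ k, p = k + 2 := ⟨p - 2, by omega⟩
    clear * -
    induction k with
    | zero => norm_num
    | succ k ih =>
      have : 2 ^ (k + 1 + 2) = 2 * 2 ^ (k + 2) := by ring
      omega
  have hP4 : 4 ≤ P := by omega
  have hS0 : 0 < S := by
    rcases Nat.eq_zero_or_pos S with h | h
    · exfalso
      rw [h] at h1
      have h3 : 0 < 4096 * p * P * N * t := by positivity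
      simp at h1
      omega
    · exact h
  -- `S ≥ 4096 p² P t`
  have hS1 : 4096 * (p * p) * (P * t) ≤ S := by
    have h3 : 4096 * p * P * (p * S) * t ≤ S * S := by
      calc 4096 * p * P * (p * S) * t ≤ 4096 * p * P * N * t := by gcongr
        _ ≤ S * S := by rw [← pow_two]; exact h1
    have h4 : (4096 * (p * p) * (P * t)) * S ≤ S * S := by
      calc (4096 * (p * p) * (P * t)) * S = 4096 * p * P * (p * S) * t := by ring
        _ ≤ S * S := h3
    exact Nat.le_of_mul_le_mul_right h4 hS0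
  have hPt : 4 ≤ P * t := by nlinarith
  have hpp : 4 ≤ p * p := by nlinarith
  have hSN : S ≤ N := by nlinarith
  -- `p ≤ q`
  have hpq : p ≤ q := by
    by_contra hcon
    have h3 : q + 1 ≤ p := by omega
    have h4 : (q + 1) * (q + 1) ≤ p * p := Nat.mul_le_mul h3 h3
    have h5 : p * p ≤ 4096 * (p * p) * (P * t) := by nlinarith
    omega
  have hq0 : 0 < q := by omega
  have hpq0 : 0 < p * q := by positivity
  -- `S ≥ 90 p q`
  have hS2 : 90 * (p * q) ≤ S := by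
    by_contra hcon
    have h3 : S < 90 * (p * q) := by omega
    have h4 : S * S < (90 * (p * q)) * (90 * (p * q)) := Nat.mul_self_lt_mul_self h3
    have h5 : 8192 * ((p * q) * (p * q)) ≤ S * S := by
      calc 8192 * ((p * q) * (p * q)) = 4096 * p * (2 * p) * (q * q) * 1 := by ring
        _ ≤ 4096 * p * P * N * t := by gcongr
        _ ≤ S * S := by rw [← pow_two]; exact h1
    nlinarith
  obtain ⟨ρ, hρ⟩ : ∃ ρ, ρ = S / (4 * (p * q)) := ⟨_, rfl⟩
  have hρ1 : ρ * (4 * (p * q)) ≤ S := by rw [hρ]; exact Nat.div_mul_le_self _ _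
  have hρ2 : S < (ρ + 1) * (4 * (p * q)) := by
    rw [hρ, mul_comm]
    exact Nat.lt_mul_div_succ S (by positivity)
  have hρ22 : 22 ≤ ρ := by
    rw [hρ, Nat.le_div_iff_mul_le (by positivity)]
    omega
  have hρq : ρ ≤ q := by
    by_contra hcon
    have h3 : q + 1 ≤ ρ := by omega
    have h4 : (q + 1) * (4 * (p * q)) ≤ S := (Nat.mul_le_mul_right _ h3).trans hρ1
    have h5 : p * ((q + 1) * (4 * (p * q))) < (q + 1) * (q + 1) :=
      ((Nat.mul_le_mul_left p h4).trans h2).trans_lt hq2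
    have h6 : (q + 1) * (16 * q) ≤ (q + 1) * (q + 1) := by
      calc (q + 1) * (16 * q) = (q + 1) * (4 * q) * 4 := by ring
        _ ≤ (q + 1) * (4 * q) * (p * p) := by gcongr
        _ = p * ((q + 1) * (4 * (p * q))) := by ring
        _ ≤ _ := h5.le
    have h7 := Nat.le_of_mul_le_mul_left h6 (by omega)
    omega
  have hℓ1 : 22 * S ≤ 92 * (p * (ρ * q)) := by
    have h3 : 22 * (ρ + 1) ≤ 23 * ρ := by omega
    have h4 : 22 * S ≤ 22 * (ρ + 1) * (4 * (p * q)) := by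
      rw [mul_assoc]; exact Nat.mul_le_mul_left 22 hρ2.le
    calc 22 * S ≤ 22 * (ρ + 1) * (4 * (p * q)) := h4
      _ ≤ 23 * ρ * (4 * (p * q)) := Nat.mul_le_mul_right _ h3
      _ = 92 * (p * (ρ * q)) := by ring
  have hr4 : 4 * (p * (ρ * q)) ≤ S := by
    calc 4 * (p * (ρ * q)) = ρ * (4 * (p * q)) := by ring
      _ ≤ S := hρ1
  have hℓ0 : 0 < ρ * q := by positivity
  have hq180 : 180 * q ≤ S := by
    calc 180 * q = 90 * (2 * q) := by ring
      _ ≤ 90 * (p * q) := by gcongr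
      _ ≤ S := hS2
  obtain ⟨a, ha⟩ : ∃ a, a = P * (t + 3) + p := ⟨_, rfl⟩
  have ha5 : a ≤ 5 * (P * t) := by
    rw [ha]
    have h3 : P ≤ P * t := by nlinarith
    nlinarith
  have haℓ : a ≤ ρ * q := by
    have h3 : 22 * (4096 * (p * p) * (P * t)) ≤ 92 * (p * (ρ * q)) :=
      (Nat.mul_le_mul_left 22 hS1).trans hℓ1
    have h4 : p * (22 * 4096 * (p * (P * t))) ≤ p * (92 * (ρ * q)) := by
      calc p * (22 * 4096 * (p * (P * t))) = 22 * (4096 * (p * p) * (P * t)) := by ring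
        _ ≤ 92 * (p * (ρ * q)) := h3
        _ = p * (92 * (ρ * q)) := by ring
    have h5 := Nat.le_of_mul_le_mul_left h4 (by omega)
    have h6 : 2 * (P * t) ≤ p * (P * t) := Nat.mul_le_mul_right _ hp
    omega
  refine ⟨ρ, ρ * q, p * (ρ * q), a, hpq, hρq, rfl, rfl, hℓ0, ?_, ha.ge, haℓ, ?_⟩
  · omega
  · obtain ⟨y, hy⟩ : ∃ y, y = N / (ρ * q) := ⟨_, rfl⟩
    rw [← hy]
    have hy1 : y * (ρ * q) ≤ N := by rw [hy]; exact Nat.div_mul_le_self _ _
    have h3 : (22 * 4096 * (y * a)) * S ≤ 460 * S * S := by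
      calc (22 * 4096 * (y * a)) * S = 4096 * (y * a) * (22 * S) := by ring
        _ ≤ 4096 * (y * a) * (92 * (p * (ρ * q))) := Nat.mul_le_mul_left _ hℓ1
        _ = 4096 * 92 * p * a * (y * (ρ * q)) := by ring
        _ ≤ 4096 * 92 * p * a * N := Nat.mul_le_mul_left _ hy1
        _ ≤ 4096 * 92 * p * (5 * (P * t)) * N := by gcongr
        _ = 460 * (4096 * p * P * N * t) := by ring
        _ ≤ 460 * S ^ 2 := Nat.mul_le_mul_left _ h1
        _ = 460 * S * S := by ring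
    have h4 := Nat.le_of_mul_le_mul_right h3 hS0
    have h5 : 4096 * 4 * (P * t) ≤ S := by
      calc 4096 * 4 * (P * t) ≤ 4096 * (p * p) * (P * t) := by gcongr
        _ ≤ S := hS1
    have h6 : (y + 1) * a = y * a + a := by ring
    rw [h6]
    omega

end Vale.Agent.P336.R2.H597
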