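import Mathlib

/-!
# P336: the numerical inequality (W3)
-/

namespace Vale.Agent.P336.R2.H597

open Finset

section Weights

variable {V : Type*} [Fintype V] [DecidableEq V]

omit [DecidableEq V] in
theorem sum_pow_card (q : ℝ) : ∑ A : Finset V, q ^ A.card = (1 + q) ^ Fintype.card V := by
  rw [← Finset.powerset_univ, ← Finset.card_univ, ← Finset.prod_const, Finset.prod_one_add]
  refine Finset.sum_congr rfl fun A _ => ?_
  rw [Finset.prod_const]

theorem sum_pow_inter {q c : ℝ} (B : Finset V) :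
    ∑ A : Finset V, q ^ A.card * c ^ (B ∩ A).card =
      (1 + q * c) ^ B.card * (1 + q) ^ (Fintype.card V - B.card) := by
  have h1 : ∏ v : V, (1 + q * if v ∈ B then c else 1) =
      (1 + q * c) ^ B.card * (1 + q) ^ (Fintype.card V - B.card) := by
    rw [← Finset.card_compl, ← Finset.prod_const, ← Finset.prod_const,
      ← Finset.prod_mul_prod_compl B]
    congr 1
    · exact Finset.prod_congr rfl fun v hv => by rw [if_pos hv]
    · exact Finset.prod_congr rfl fun v hv => by rw [if_neg (Finset.mem_compl.1 hv), mul_one]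
  rw [← h1, Finset.prod_one_add, Finset.powerset_univ]
  refine Finset.sum_congr rfl fun A _ => ?_
  rw [Finset.prod_mul_distrib, Finset.prod_const, Finset.prod_ite_mem, Finset.prod_const,
    Finset.inter_comm]

omit [Fintype V] [DecidableEq V] in
theorem card_small_le {y : ℝ} (hy0 : 0 < y) (hy1 : y ≤ 1) (f : ℕ) (A : Finset V) :
    ((A.powerset.filter fun F => F.card < f).card : ℝ) ≤ y⁻¹ ^ f * (1 + y) ^ A.card := by
  have h1 : (1 + y) ^ A.card = ∑ F ∈ A.powerset, y ^ F.card := by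
    rw [← Finset.prod_const, Finset.prod_one_add]
    refine Finset.sum_congr rfl fun F _ => ?_
    rw [Finset.prod_const]
  rw [h1, Finset.mul_sum, Finset.card_eq_sum_ones, Nat.cast_sum, Finset.sum_filter]
  refine Finset.sum_le_sum fun F _ => ?_
  split_ifs with hF
  · rw [Nat.cast_one, inv_pow]
    have h2 : y ^ f ≤ y ^ F.card := pow_le_pow_of_le_one hy0.le hy1 hF.le
    have h3 : (0 : ℝ) < y ^ f := by positivity
    calc (1 : ℝ) = (y ^ f)⁻¹ * y ^ f := (inv_mul_cancel₀ h3.ne').symm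
      _ ≤ (y ^ f)⁻¹ * y ^ F.card := mul_le_mul_of_nonneg_left h2 (by positivity)
  · positivity

end Weights

theorem two_mul_le_two_pow {p : ℕ} (hp : 2 ≤ p) : 2 * p ≤ 2 ^ p := by
  obtain ⟨k, rfl⟩ : ∃ k, p = k + 2 := ⟨p - 2, by omega⟩
  clear hp
  induction k with
  | zero => norm_num
  | succ k ih =>
    have : 2 ^ (k + 1 + 2) = 2 * 2 ^ (k + 2) := by ring
    omega

theorem sq_le_two_pow {p : ℕ} (hp : 2 ≤ p) : p * p ≤ 2 ^ (p + 1) := by
  obtain ⟨k, rfl⟩ : ∃ k, p = k + 2 := ⟨p - 2, by omega⟩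
  clear hp
  induction k with
  | zero => norm_num
  | succ k ih =>
    have h1 : 2 ^ (k + 1 + 2 + 1) = 2 * 2 ^ (k + 2 + 1) := by ring
    rcases Nat.lt_or_ge k 1 with h | h
    · have : k = 0 := by omega
      subst this
      norm_num
    · nlinarith

theorem exp_neg_le_half {n : ℕ} {x : ℝ} (h : (n : ℝ) ≤ x) : Real.exp (-x) ≤ (1 / 2 : ℝ) ^ n := by
  have h1 : Real.exp (-x) ≤ Real.exp (-(n : ℝ)) := Real.exp_le_exp.mpr (by linarith)
  have h2 : Real.exp (-(n : ℝ)) = Real.exp (-1) ^ n := by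
    rw [← Real.exp_nat_mul]; congr 1; ring
  have h3 : Real.exp (-1) ≤ 1 / 2 := by
    have h4 : (2 : ℝ) ≤ Real.exp 1 := by
      have := Real.add_one_le_exp (1 : ℝ)
      linarith
    rw [Real.exp_neg, one_div]
    exact inv_anti₀ (by norm_num) h4
  rw [h2] at h1
  exact h1.trans (pow_le_pow_left₀ (Real.exp_pos _).le h3 n)

/-- The main estimate with free parameters. -/
theorem weights_core {p a f u T : ℕ} {q y : ℝ} (hq0 : 0 < q) (hq1 : q ≤ 1 / 2) (hy0 : 0 < y)
    (hy1 : y ≤ 1) :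
    ∑ A : Finset (Fin p × Fin a), q ^ A.card *
        (if ∀ i : Fin p, T ≤ (univ.filter fun k : Fin a => (i, k) ∈ A).card
          then (1 / 2 : ℝ) ^ f + ((A.powerset.filter fun F => F.card < f).card : ℝ) * (1 / 2) ^ u
          else 1) ≤ (1 + q) ^ (p * a) * ((1 / 2 : ℝ) ^ f +
            (y⁻¹ ^ f * Real.exp (q * y * (p * a))) * (1 / 2) ^ u +
            p * (2 ^ T * Real.exp (-(q * a / 3)))) := by
  classical
  have hcard : Fintype.card (Fin p × Fin a) = p * a := by simp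
  let B : Fin p → Finset (Fin p × Fin a) := fun i => univ.filter fun v => v.1 = i
  have hB : ∀ i, (B i).card = a := by
    intro i
    have : B i = (univ : Finset (Fin a)).image (fun k => (i, k)) := by
      ext ⟨j, k⟩
      simp only [B, mem_filter, mem_univ, true_and, mem_image, Prod.mk.injEq]
      constructor
      · rintro rfl
        exact ⟨k, rfl, rfl⟩
      · rintro ⟨l, h, -⟩
        exact h.symm
    rw [this, card_image_of_injective _ (fun k l h => by simpa using h), card_univ,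
      Fintype.card_fin]
  have hBA : ∀ (i : Fin p) (A : Finset (Fin p × Fin a)),
      (univ.filter fun k : Fin a => (i, k) ∈ A).card = (B i ∩ A).card := by
    intro i A
    have : B i ∩ A = (univ.filter fun k : Fin a => (i, k) ∈ A).image (fun k => (i, k)) := by
      ext ⟨j, k⟩
      simp only [B, mem_inter, mem_filter, mem_univ, true_and, mem_image, Prod.mk.injEq]
      constructor
      · rintro ⟨rfl, h⟩
        exact ⟨k, h, rfl, rfl⟩
      · rintro ⟨l, h, rfl, rfl⟩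
        exact ⟨rfl, h⟩
    rw [this, card_image_of_injective _ (fun k l h => by simpa using h)]
  have hpt : ∀ A : Finset (Fin p × Fin a),
      (if ∀ i : Fin p, T ≤ (univ.filter fun k : Fin a => (i, k) ∈ A).card
          then (1 / 2 : ℝ) ^ f + ((A.powerset.filter fun F => F.card < f).card : ℝ) * (1 / 2) ^ u
          else 1) ≤ (1 / 2 : ℝ) ^ f + (y⁻¹ ^ f * (1 + y) ^ A.card) * (1 / 2) ^ u +
            ∑ i : Fin p, 2 ^ T * (1 / 2 : ℝ) ^ (B i ∩ A).card := by
    intro A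
    have h1 := card_small_le hy0 hy1 f A
    have h2 : (0 : ℝ) ≤ ∑ i : Fin p, 2 ^ T * (1 / 2 : ℝ) ^ (B i ∩ A).card :=
      sum_nonneg fun i _ => by positivity
    have h3 : (0 : ℝ) ≤ (y⁻¹ ^ f * (1 + y) ^ A.card) * (1 / 2) ^ u := by positivity
    split_ifs with h
    · have h4 := mul_le_mul_of_nonneg_right h1 (by positivity : (0 : ℝ) ≤ (1 / 2) ^ u)
      linarith
    · push Not at h
      obtain ⟨i, hi⟩ := h
      rw [hBA] at hi
      have h4 : (1 : ℝ) ≤ 2 ^ T * (1 / 2 : ℝ) ^ (B i ∩ A).card := by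
        have h5 : (1 / 2 : ℝ) ^ T ≤ (1 / 2 : ℝ) ^ (B i ∩ A).card :=
          pow_le_pow_of_le_one (by norm_num) (by norm_num) hi.le
        calc (1 : ℝ) = 2 ^ T * (1 / 2 : ℝ) ^ T := by rw [← mul_pow]; norm_num
          _ ≤ _ := by gcongr
      have h5 : 2 ^ T * (1 / 2 : ℝ) ^ (B i ∩ A).card ≤
          ∑ i : Fin p, 2 ^ T * (1 / 2 : ℝ) ^ (B i ∩ A).card :=
        single_le_sum (f := fun i => 2 ^ T * (1 / 2 : ℝ) ^ (B i ∩ A).card)
          (fun i _ => by positivity) (mem_univ i)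
      have h6 : (0 : ℝ) ≤ (1 / 2 : ℝ) ^ f := by positivity
      linarith
  have hsum : ∑ A : Finset (Fin p × Fin a), q ^ A.card *
        (if ∀ i : Fin p, T ≤ (univ.filter fun k : Fin a => (i, k) ∈ A).card
          then (1 / 2 : ℝ) ^ f + ((A.powerset.filter fun F => F.card < f).card : ℝ) * (1 / 2) ^ u
          else 1) ≤ ∑ A : Finset (Fin p × Fin a), (q ^ A.card * (1 / 2 : ℝ) ^ f +
            (q * (1 + y)) ^ A.card * (y⁻¹ ^ f * (1 / 2) ^ u) +
            ∑ i : Fin p, 2 ^ T * (q ^ A.card * (1 / 2 : ℝ) ^ (B i ∩ A).card)) := by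
    refine sum_le_sum fun A _ => ?_
    refine (mul_le_mul_of_nonneg_left (hpt A) (by positivity)).trans (le_of_eq ?_)
    rw [mul_add, mul_add, mul_sum, mul_pow]
    congr 1
    · ring
    · exact sum_congr rfl fun i _ => by ring
  refine hsum.trans ?_
  rw [sum_add_distrib, sum_add_distrib, ← sum_mul, ← sum_mul, sum_comm, sum_pow_card,
    sum_pow_card, hcard]
  have h1 : ∀ i : Fin p, ∑ A : Finset (Fin p × Fin a),
      2 ^ T * (q ^ A.card * (1 / 2 : ℝ) ^ (B i ∩ A).card) ≤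
      2 ^ T * ((1 + q) ^ (p * a) * Real.exp (-(q * a / 3))) := by
    intro i
    rw [← mul_sum, sum_pow_inter, hB, hcard]
    have hpa : a ≤ p * a := by
      have : 0 < p := i.pos
      nlinarith
    have h2 : 1 + q * (1 / 2) ≤ (1 + q) * Real.exp (-(q / 3)) := by
      have h3 := Real.add_one_le_exp (-(q / 3))
      nlinarith
    have h3 : (1 + q * (1 / 2)) ^ a ≤ (1 + q) ^ a * Real.exp (-(q * a / 3)) := by
      have h4 := pow_le_pow_left₀ (by positivity) h2 a
      rw [mul_pow, ← Real.exp_nat_mul] at h4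
      refine h4.trans (le_of_eq ?_)
      congr 2
      ring
    have h5 : (1 + q) ^ (p * a) = (1 + q) ^ a * (1 + q) ^ (p * a - a) := by
      rw [← pow_add]; congr 1; omega
    rw [h5]
    calc 2 ^ T * ((1 + q * (1 / 2)) ^ a * (1 + q) ^ (p * a - a))
        ≤ 2 ^ T * (((1 + q) ^ a * Real.exp (-(q * a / 3))) * (1 + q) ^ (p * a - a)) := by
          gcongr
      _ = _ := by ring
  have h2 : ∑ i : Fin p, ∑ A : Finset (Fin p × Fin a),
      2 ^ T * (q ^ A.card * (1 / 2 : ℝ) ^ (B i ∩ A).card) ≤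
      p * (2 ^ T * ((1 + q) ^ (p * a) * Real.exp (-(q * a / 3)))) := by
    refine (sum_le_sum fun i _ => h1 i).trans (le_of_eq ?_)
    rw [sum_const, card_univ, Fintype.card_fin, nsmul_eq_mul]
  have h3 : (1 + q * (1 + y)) ^ (p * a) ≤
      (1 + q) ^ (p * a) * Real.exp (q * y * (p * a)) := by
    have h4 : 1 + q * (1 + y) ≤ (1 + q) * Real.exp (q * y) := by
      have h5 := Real.add_one_le_exp (q * y)
      have h6 : 0 ≤ q * (q * y) := by positivity
      nlinarith
    have h5 := pow_le_pow_left₀ (by positivity) h4 (p * a)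
    rw [mul_pow, ← Real.exp_nat_mul] at h5
    refine h5.trans (le_of_eq ?_)
    congr 2
    push_cast
    ring
  have h4 : (1 + q * (1 + y)) ^ (p * a) * (y⁻¹ ^ f * (1 / 2) ^ u) ≤
      ((1 + q) ^ (p * a) * Real.exp (q * y * (p * a))) * (y⁻¹ ^ f * (1 / 2) ^ u) := by
    gcongr
  calc _ ≤ (1 + q) ^ (p * a) * (1 / 2) ^ f +
        ((1 + q) ^ (p * a) * Real.exp (q * y * (p * a))) * (y⁻¹ ^ f * (1 / 2) ^ u) +
        p * (2 ^ T * ((1 + q) ^ (p * a) * Real.exp (-(q * a / 3)))) := by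
          gcongr
    _ = _ := by ring

theorem weights : ∃ K : ℕ, ∀ p R t a : ℕ, 2 ≤ p → 1 ≤ R → 1 ≤ t → a = K * R * p * 2 ^ p * t →
    ∃ (f u : ℕ) (q : ℝ), 0 < q ∧ (R : ℝ) * q ≤ 1 / 2 ∧
      2 * ∑ A : Finset (Fin p × Fin a), q ^ A.card *
        (if ∀ i : Fin p, 2 ^ p * u + p + f ≤ (univ.filter fun k : Fin a => (i, k) ∈ A).card
          then (1 / 2 : ℝ) ^ f + ((A.powerset.filter fun F => F.card < f).card : ℝ) * (1 / 2) ^ u
          else 1) ≤ (1 + q) ^ (p * a) * (1 / 2 : ℝ) ^ (t + 3) := by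
  refine ⟨1024, ?_⟩
  intro p R t a hp hR ht ha
  have hR0 : (0 : ℝ) < R := by exact_mod_cast hR
  have hR1 : (1 : ℝ) ≤ R := by exact_mod_cast hR
  have ht1 : (1 : ℝ) ≤ t := by exact_mod_cast ht
  have hp2 : (2 : ℝ) ≤ p := by exact_mod_cast hp
  obtain ⟨P, hP⟩ : ∃ P : ℕ, P = 2 ^ p := ⟨_, rfl⟩
  have hP2 : 2 * p ≤ P := hP ▸ two_mul_le_two_pow hp
  have hP4 : 4 ≤ P := by omega
  obtain ⟨f, hf⟩ : ∃ f : ℕ, f = t + 6 := ⟨_, rfl⟩
  obtain ⟨u, hu⟩ : ∃ u : ℕ, u = f * (2 * p + 13) := ⟨_, rfl⟩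
  have hf0 : (0 : ℝ) < f := by rw [hf]; positivity
  obtain ⟨q, hq⟩ : ∃ q : ℝ, q = 1 / (2 * R) := ⟨_, rfl⟩
  have hq0 : 0 < q := by rw [hq]; positivity
  have hRq : (R : ℝ) * q = 1 / 2 := by rw [hq]; field_simp
  have hq1 : q ≤ 1 / 2 := by
    have : q ≤ R * q := by nlinarith
    linarith
  have haR : (a : ℝ) = 1024 * R * p * P * t := by rw [ha, hP]; push_cast; ring
  have hqa : q * a = 512 * p * P * t := by
    rw [haR]
    calc q * (1024 * R * p * P * t) = (R * q) * (1024 * p * P * t) := by ring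
      _ = _ := by rw [hRq]; ring
  have hPR : (4 : ℝ) ≤ P := by exact_mod_cast hP4
  obtain ⟨L, hL⟩ : ∃ L : ℝ, L = 512 * (p * p) * P * t := ⟨_, rfl⟩
  have hL0 : 0 < L := by rw [hL]; positivity
  have hqpa : q * (p * a) = L := by
    rw [hL]
    calc q * (p * a) = p * (q * a) := by ring
      _ = _ := by rw [hqa]; ring
  obtain ⟨y, hy⟩ : ∃ y : ℝ, y = f / L := ⟨_, rfl⟩
  have hy0 : 0 < y := by rw [hy]; positivity
  have hft : (f : ℝ) ≤ 7 * t := by rw [hf]; push_cast; linarith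
  have hpP : (8 : ℝ) ≤ p * P := by nlinarith
  have hy1 : y ≤ 1 := by
    rw [hy, div_le_one hL0, hL]
    have h1 : (16 : ℝ) ≤ p * p * P := by nlinarith
    have h2 : 16 * (t : ℝ) ≤ p * p * P * t := by nlinarith
    nlinarith
  refine ⟨f, u, q, hq0, hRq.le, ?_⟩
  have key := weights_core (p := p) (a := a) (f := f) (u := u) (T := 2 ^ p * u + p + f)
    hq0 hq1 hy0 hy1
  -- the second term
  have e2 : (y⁻¹ ^ f * Real.exp (q * y * (p * a))) * (1 / 2 : ℝ) ^ u ≤ (1 / 2 : ℝ) ^ f := by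
    have h1 : q * y * (p * a) = f := by
      calc q * y * (p * a) = (q * (p * a)) * y := by ring
        _ = L * (f / L) := by rw [hqpa, hy]
        _ = f := by field_simp
    have h2 : y⁻¹ ≤ 512 * (p * p) * P := by
      rw [hy, inv_div, div_le_iff₀ hf0, hL]
      have h3 : (t : ℝ) ≤ f := by rw [hf]; push_cast; linarith
      gcongr
    have h3 : Real.exp (f : ℝ) = Real.exp 1 ^ f := by
      rw [← Real.exp_nat_mul, mul_one]
    have h4 : Real.exp 1 ≤ 4 := by
      have := Real.exp_one_lt_d9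
      linarith
    have h5 : (p * p : ℝ) ≤ 2 ^ (p + 1) := by exact_mod_cast sq_le_two_pow hp
    have h6 : y⁻¹ * Real.exp 1 * (1 / 2 : ℝ) ^ (2 * p + 13) ≤ 1 / 2 := by
      have hPp : (P : ℝ) = 2 ^ p := by rw [hP]; push_cast; rfl
      calc y⁻¹ * Real.exp 1 * (1 / 2 : ℝ) ^ (2 * p + 13)
          ≤ (512 * (p * p) * P) * 4 * (1 / 2 : ℝ) ^ (2 * p + 13) := by gcongr
        _ ≤ (512 * 2 ^ (p + 1) * 2 ^ p) * 4 * (1 / 2 : ℝ) ^ (2 * p + 13) := by
            rw [hPp]; gcongr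
        _ = 1 / 2 := by
            have h7 : (1 / 2 : ℝ) ^ (2 * p + 13) = (1 / 2) ^ p * (1 / 2) ^ p * (1 / 2) ^ 13 := by
              rw [← pow_add, ← pow_add]; congr 1; omega
            have h8 : (2 : ℝ) ^ p * (1 / 2) ^ p = 1 := by rw [← mul_pow]; norm_num
            rw [h7, pow_succ]
            calc 512 * ((2 : ℝ) ^ p * 2) * 2 ^ p * 4 * ((1 / 2) ^ p * (1 / 2) ^ p * (1 / 2) ^ 13)
                = 4096 * (2 ^ p * (1 / 2) ^ p) * (2 ^ p * (1 / 2) ^ p) * (1 / 2) ^ 13 := by ring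
              _ = 1 / 2 := by rw [h8]; norm_num
    rw [h1, h3, hu, pow_mul', ← mul_pow, ← mul_pow]
    exact pow_le_pow_left₀ (by positivity) h6 f
  -- the third term
  have e3 : p * (2 ^ (2 ^ p * u + p + f) * Real.exp (-(q * a / 3))) ≤ (1 / 2 : ℝ) ^ f := by
    have h1 : ((2 ^ p * u + p + f + p + f : ℕ) : ℝ) ≤ q * a / 3 := by
      rw [hqa, le_div_iff₀ (by norm_num : (0 : ℝ) < 3)]
      have h2 : (2 ^ p * u + p + f + p + f) * 3 ≤ 512 * p * P * t := by
        rw [hu, ← hP]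
        have g1 : f ≤ 7 * t := by omega
        have g2 : 2 * p + 13 ≤ 9 * p := by omega
        have g3 : P * (f * (2 * p + 13)) ≤ P * (7 * t * (9 * p)) := by gcongr
        have g4 : P * (7 * t * (9 * p)) = 63 * (p * P * t) := by ring
        have g5 : 8 ≤ p * P := by nlinarith
        have g6 : 8 * t ≤ p * P * t := Nat.mul_le_mul_right t g5
        have g7 : p ≤ p * P * t := by
          calc p = p * 1 * 1 := by ring
            _ ≤ p * P * t := by gcongr; omega
        have g8 : 512 * p * P * t = 512 * (p * P * t) := by ring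
        rw [g8]
        omega
      exact_mod_cast h2
    have h3 := exp_neg_le_half h1
    have h4 : (p : ℝ) ≤ 2 ^ p := by
      have : p ≤ P := by omega
      rw [hP] at this
      exact_mod_cast this
    have h5 : (1 / 2 : ℝ) ^ (2 ^ p * u + p + f + p + f) =
        (1 / 2) ^ (2 ^ p * u + p + f) * (1 / 2) ^ p * (1 / 2) ^ f := by
      rw [← pow_add, ← pow_add]
    rw [h5] at h3
    have h6 : ∀ n : ℕ, (2 : ℝ) ^ n * (1 / 2) ^ n = 1 := fun n => by
      rw [← mul_pow]; norm_num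
    calc (p : ℝ) * (2 ^ (2 ^ p * u + p + f) * Real.exp (-(q * a / 3)))
        ≤ 2 ^ p * (2 ^ (2 ^ p * u + p + f) *
          ((1 / 2) ^ (2 ^ p * u + p + f) * (1 / 2) ^ p * (1 / 2) ^ f)) := by gcongr
      _ = (2 ^ p * (1 / 2) ^ p) * (2 ^ (2 ^ p * u + p + f) * (1 / 2) ^ (2 ^ p * u + p + f)) *
          (1 / 2) ^ f := by ring
      _ = (1 / 2) ^ f := by rw [h6, h6]; ring
  have hfin : (1 / 2 : ℝ) ^ f = (1 / 2) ^ (t + 3) * (1 / 8) := by
    rw [hf, show t + 6 = (t + 3) + 3 by ring, pow_add]; norm_num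
  have hpos : (0 : ℝ) < (1 + q) ^ (p * a) := by positivity
  calc _ ≤ 2 * ((1 + q) ^ (p * a) * ((1 / 2 : ℝ) ^ f +
            (y⁻¹ ^ f * Real.exp (q * y * (p * a))) * (1 / 2) ^ u +
            p * (2 ^ (2 ^ p * u + p + f) * Real.exp (-(q * a / 3))))) := by gcongr
    _ ≤ 2 * ((1 + q) ^ (p * a) * ((1 / 2 : ℝ) ^ f + (1 / 2 : ℝ) ^ f + (1 / 2 : ℝ) ^ f)) := by
        gcongr
    _ ≤ (1 + q) ^ (p * a) * (1 / 2 : ℝ) ^ (t + 3) := by
        rw [hfin]
        have h7 : (0 : ℝ) < (1 + q) ^ (p * a) * (1 / 2 : ℝ) ^ (t + 3) := by positivity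
        nlinarith

end Vale.Agent.P336.R2.H597
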